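import Vale.Agent.P167U.UStm

open Finset Filter Topology MeasureTheory
open scoped Classical

namespace Vale.Agent.P167Q.U

open Vale.Agent.P167Q.W hiding nr

namespace UClx

theorem ends (v : Sq) : ∃ i : Bool, P167.Q.ea v = ed v true i ∧ P167.Q.eb v = ed v true (!i) := by
  by_cases h : Even (v.1 + v.2)
  · refine ⟨true, ?_, ?_⟩
    · simp [P167.Q.ea, ed, h]
    · simp [P167.Q.eb, ed, h, Prod.ext_iff]
  · refine ⟨false, ?_, ?_⟩
    · simp [P167.Q.ea, ed, h, Prod.ext_iff]
    · simp [P167.Q.eb, ed, h, Prod.ext_iff]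

theorem par (v : Sq) (b i : Bool) : Even ((ed v b i).1 + (ed v b i).2) ↔ b = true := by
  by_cases h : Even (v.1 + v.2)
  · have h' := Int.even_iff.mp h
    cases b <;> cases i <;> simp [ed, h, Int.even_iff] <;> omega
  · have h' := mt Int.even_iff.mpr h
    cases b <;> cases i <;> simp [ed, h, Int.even_iff] <;> omega

theorem fwd (hb : Base) (ω : Cf) (x y : Sq)
    (h : Relation.EqvGen (fun u w => ∃ v, ω v = true ∧ P167.Q.ea v = u ∧ P167.Q.eb v = w) x y) :
    y ∈ clus ω x := by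
  induction h with
  | rel u w h =>
    obtain ⟨v, h1, h2, h3⟩ := h
    obtain ⟨i, a, b⟩ := ends v
    refine Relation.ReflTransGen.single ⟨v, i, ?_, ?_⟩
    · rw [h1, ← a, h2]
    · rw [h1, ← b, h3]
  | refl u => exact hb.bas.self ω u
  | symm u w _ ih =>
    rw [hb.bas.cleq ω u w ih]
    exact hb.bas.self ω u
  | trans u w z _ _ ih1 ih2 =>
    rw [← hb.bas.cleq ω u w ih1]
    exact ih2

theorem bwd (ω : Cf) (x y : Sq) (hx : Even (x.1 + x.2)) (h : Relation.ReflTransGen (Op ω) x y) :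
    Even (y.1 + y.2) ∧
      Relation.EqvGen (fun u w => ∃ v, ω v = true ∧ P167.Q.ea v = u ∧ P167.Q.eb v = w) x y := by
  induction h with
  | refl => exact ⟨hx, Relation.EqvGen.refl _⟩
  | tail _ h ih =>
    obtain ⟨v, i, rfl, rfl⟩ := h
    have h1 : ω v = true := (par v _ i).mp ih.1
    refine ⟨(par v _ _).mpr h1, Relation.EqvGen.trans _ _ _ ih.2 ?_⟩
    obtain ⟨j, a, b⟩ := ends v
    rw [h1]
    by_cases hij : i = j
    · subst hij
      exact Relation.EqvGen.rel _ _ ⟨v, h1, a, b⟩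
    · have e : j = !i := by
        cases i <;> cases j <;> simp_all
      subst e
      rw [Bool.not_not] at b
      exact Relation.EqvGen.symm _ _ (Relation.EqvGen.rel _ _ ⟨v, h1, a, b⟩)

end UClx

theorem ucl_pf (hb : Base) : U_cl := by
  intro ω
  ext y
  exact ⟨fun h => UClx.fwd hb ω _ y h, fun h => (UClx.bwd ω _ y (by simp) h).2⟩

end Vale.Agent.P167Q.U
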