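import Vale.Agent.P167U.UStm
import Vale.Agent.P167Q.Y0

/-! P167U: basic facts on the arm events. -/

open Finset Filter Topology MeasureTheory
open scoped Classical

namespace Vale.Agent.P167Q.U

open Vale.Agent.P167Q.W hiding nr

namespace U0x

open Y0x

theorem pre (h : X_sh) (x : Sq) (k : ℕ) : Ax x k = sh x ⁻¹' BA true 0 k := by
  ext ω
  rw [Set.mem_preimage, ba0]
  refine not_congr ⟨fun c y hy => ?_, fun c y hy => ?_⟩
  · rw [h.cl, zero_add] at hy
    exact mem_coe.2 (tr.1 (mem_coe.1 (c hy)))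
  · have : y - x ∈ clus (sh x ω) 0 := by rwa [h.cl, zero_add, sub_add_cancel]
    have := (tr (x := x)).2 (mem_coe.1 (c this))
    rw [sub_add_cancel] at this
    exact mem_coe.2 this

theorem pol {μ : Measure Cf} {α : ℝ} (h : Au μ α) (ε : ℝ) (hε : 0 < ε) :
    ∃ C : ℝ, 1 ≤ C ∧ ∀ k : ℕ, 1 ≤ k →
    (k : ℝ) ^ (-(α + ε)) ≤ C * pcm μ true 0 k ∧
      pcm μ true 0 k ≤ C * (k : ℝ) ^ (-(α - ε)) := by
  obtain ⟨k0, hk⟩ := eventually_atTop.1 ((h.eup ε hε).and (h.elo ε hε))
  have p0 := h.rsw.2 k0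
  have a0 := h.a0
  have a1 := h.a1
  have i0 : 0 ≤ (pcm μ true 0 k0)⁻¹ := (inv_pos.2 p0).le
  have n0 : (0 : ℝ) ≤ k0 := Nat.cast_nonneg _
  refine ⟨1 + (pcm μ true 0 k0)⁻¹ + k0, by linarith, fun k h1 => ?_⟩
  have k1 : (1 : ℝ) ≤ k := Nat.one_le_cast.2 h1
  have kp : (0 : ℝ) < k := by linarith
  have pk := h.rsw.2 k
  have rp := Real.rpow_pos_of_pos kp (-(α - ε))
  rcases le_or_gt k0 k with c | c
  · obtain ⟨u, l⟩ := hk k c
    rw [← neg_mul, mul_comm, ← Real.rpow_def_of_pos kp] at u l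
    exact ⟨l.trans (le_mul_of_one_le_left pk.le (by linarith)),
      u.trans (le_mul_of_one_le_left rp.le (by linarith))⟩
  · have m := h.sub.mc true 0 0 k0 k le_rfl c.le
    have : IsProbabilityMeasure μ := h.mod.prob
    have q1 : pcm μ true 0 k ≤ 1 := measureReal_le_one
    have q2 : (k : ℝ) ≤ k0 := Nat.cast_le.2 c.le
    constructor
    · refine (Real.rpow_le_one_of_one_le_of_nonpos k1 (by linarith)).trans ?_
      exact (inv_mul_cancel₀ p0.ne').symm.trans_le
        (mul_le_mul (by linarith) m p0.le (by linarith))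
    · have q3 := Real.rpow_le_rpow_of_exponent_le k1 (show (-1 : ℝ) ≤ -(α - ε) by linarith)
      rw [Real.rpow_neg_one] at q3
      exact q1.trans ((mul_inv_cancel₀ kp.ne').symm.trans_le
        (mul_le_mul (by linarith) q3 (inv_pos.2 kp).le (by linarith)))

end U0x

theorem u0_pf {μ : Measure Cf} {α : ℝ} (h : Au μ α) : U_0 μ α where
  ax := fun x k => by
    rw [U0x.pre h.sh]
    refine ⟨fun ω ω' e => h.dep.ba true 0 k _ _ fun v hv => ?_,
      (h.mod.inv x).measureReal_preimage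
        ((h.base.loc _ _).2 _ (h.dep.ba true 0 k)).1.nullMeasurableSet,
      fun hx => (h.dep.up 0 k).preimage fun ω ω' e v => ?_⟩
    · unfold sh
      rw [e _ (Y0x.tr.2 hv)]
    · unfold sh
      rw [decide_eq_false (Int.not_odd_iff_even.2 hx), Bool.false_xor, Bool.false_xor]
      exact e _
  pol := U0x.pol h

end Vale.Agent.P167Q.U
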