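import Vale.Agent.P167U.UStm
import Vale.Agent.P167Q.Y0

/-! P167U: an arm from a point decouples from what is far away. -/

open Finset Filter Topology MeasureTheory
open scoped Classical

namespace Vale.Agent.P167Q.U

open Vale.Agent.P167Q.W hiding nr

namespace UDecx

theorem az_eq (x : Sq) (k : ℕ) : AZ (decide (Even (x.1 + x.2))) x 0 k = Ax x k := by
  ext ω
  constructor
  · rintro ⟨y, hy, -, h2⟩
    have h3 := mem_bz.1 hy
    have e : y = x := Prod.ext (by omega) (by omega)
    rw [e] at h2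
    exact h2
  · intro h2
    exact ⟨x, mem_bz.2 (by omega), rfl, h2⟩

theorem lc_ind {V : Finset Sq} {B : Set Cf} (hB : Le V B) :
    Lc V (B.indicator (1 : Cf → ℝ)) := by
  intro ω ω' h
  have e : (ω ∈ B) = (ω' ∈ B) := hB ω ω' h
  by_cases h1 : ω ∈ B
  · rw [Set.indicator_of_mem h1, Set.indicator_of_mem (e ▸ h1)]
    rfl
  · rw [Set.indicator_of_notMem h1, Set.indicator_of_notMem (e ▸ h1)]

end UDecx

theorem udec_pf {μ : Measure Cf} {α : ℝ} (h : Au μ α) (hy : U_0 μ α) : U_dec μ := by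
  obtain ⟨g, g1, hg⟩ := h.arm (1 / 2) (by norm_num)
  refine ⟨g, g1, fun x k V B hB hd => ?_⟩
  have hk : k + 1 ≤ g * (k + 2) := by nlinarith
  have hm := h.mix (decide (Even (x.1 + x.2))) x 0 k (g * (k + 2)) (B.indicator 1) hk
    ⟨⟨V, UDecx.lc_ind hB, hd⟩, fun ω => Set.indicator_nonneg (fun _ _ => zero_le_one) ω⟩
  rw [UDecx.az_eq] at hm
  have mB : MeasurableSet B := ((h.base.loc _ V).2 B hB).1
  have mA : MeasurableSet (Ax x k) := ((h.base.loc _ _).2 _ (hy.ax x k).1).1
  have e1 : (exm μ fun ω => (Ax x k).indicator 1 ω * B.indicator 1 ω) = μ.real (Ax x k ∩ B) := by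
    unfold exm
    rw [← integral_indicator_one (mA.inter mB), Set.inter_indicator_one]
    rfl
  have e2 : exm μ (B.indicator 1) = μ.real B := by
    unfold exm
    exact integral_indicator_one mB
  rw [e1, e2, (hy.ax x k).2.1] at hm
  have p1 := hg (k + 2) (by omega)
  have p2 : 0 ≤ μ.real (Ax x k ∩ B) := measureReal_nonneg
  nlinarith [mul_le_mul_of_nonneg_right p1 p2]

end Vale.Agent.P167Q.U
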