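import Vale.Agent.P167U.UStm
import Vale.Agent.P167Q.YGc

/-! P167U: the two point exponent. -/

open Finset Filter Topology MeasureTheory
open scoped Classical

namespace Vale.Agent.P167Q.U

open Vale.Agent.P167Q.W hiding nr

theorem ugc_pf {μ : Measure Cf} {α : ℝ} (hc : U_cl) (hu : U_pu μ α) (hl : U_pl μ α) :
    GoalC μ α := by
  unfold GoalC
  simp only [show ∀ ω, _ from hc]
  refine Metric.tendsto_nhds.2 fun ε hε => ?_
  obtain ⟨C₁, hC₁, h₁⟩ := hu (ε / 2) (by linarith)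
  obtain ⟨C₂, hC₂, h₂⟩ := hl (ε / 2) (by linarith)
  have t1 : Tendsto (fun x : Sq => (nr x : ℝ)) cofinite atTop :=
    tendsto_natCast_atTop_atTop.comp YGcx.nr_top
  have t2 : Tendsto (fun x : Sq => Real.log (C₁ + C₂) / Real.log (nr x : ℝ)) cofinite (𝓝 0) :=
    (Real.tendsto_log_atTop.comp t1).const_div_atTop _
  rw [eventually_inf_principal]
  filter_upwards [t2.eventually (gt_mem_nhds (by linarith : (0 : ℝ) < ε / 2)),
    YGcx.nr_top.eventually_ge_atTop 2] with x h1 h2 he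
  have r1 : (1 : ℝ) < nr x := by exact_mod_cast h2
  have p0 : 0 ≤ tpm μ x := measureReal_nonneg
  have p1 : 0 ≤ (nr x : ℝ) ^ (-(2 * α - ε / 2)) := Real.rpow_nonneg (by linarith) _
  have a1 : tpm μ x ≤ (C₁ + C₂) * (nr x : ℝ) ^ (-(2 * α - ε / 2)) :=
    (h₁ x (by omega)).trans (mul_le_mul_of_nonneg_right (by linarith) p1)
  have a2 : (nr x : ℝ) ^ (-(2 * α + ε / 2)) ≤ (C₁ + C₂) * tpm μ x :=
    (h₂ x (by omega) he).trans (mul_le_mul_of_nonneg_right (by linarith) p0)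
  have := YGcx.bds (by linarith) r1 a1 a2
  rw [YGcx.cast_nr, Real.dist_eq]
  exact lt_of_le_of_lt this (by linarith)

end Vale.Agent.P167Q.U
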