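import Vale.Agent.P167U.UStm

open Finset Filter Topology MeasureTheory
open scoped Classical

namespace Vale.Agent.P167Q.U

open Vale.Agent.P167Q.W hiding nr

theorem ugd_pf {μ : Measure Cf} {α : ℝ} (hc : U_cl) (hu : U_vup μ α) (hl : U_vlo μ α) :
    GoalD μ α := by
  unfold GoalD
  simp only [show ∀ ω : Cf, P167.Q.clus ω (0, 0) = clus ω (0, 0) from hc]
  refine Metric.tendsto_nhds.2 fun ε hε => ?_
  filter_upwards [hu (ε / 2) (half_pos hε), hl (ε / 2) (half_pos hε), eventually_gt_atTop 1]
    with n h1 h2 hn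
  have hlog : 0 < Real.log n := Real.log_pos (by exact_mod_cast hn)
  have hp : 0 < volm μ n := (Real.exp_pos _).trans_le h2
  have k3 : Real.log (volm μ n) / Real.log n ≤ -(α / (2 - α) - ε / 2) := by
    rw [div_le_iff₀ hlog]
    linarith [(Real.log_le_iff_le_exp hp).2 h1]
  have k4 : -(α / (2 - α) + ε / 2) ≤ Real.log (volm μ n) / Real.log n := by
    rw [le_div_iff₀ hlog]
    linarith [(Real.le_log_iff_exp_le hp).2 h2]
  change dist (Real.log (volm μ n) / Real.log n) _ < ε
  rw [Real.dist_eq, abs_lt]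
  constructor <;> linarith

end Vale.Agent.P167Q.U
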