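import Vale.Agent.P167U.UStm
import Vale.Agent.P167Q.YMom

/-! P167U, volume exponent: the second moment method. -/

open Finset Filter Topology MeasureTheory
open scoped Classical

namespace Vale.Agent.P167Q.U

open Vale.Agent.P167Q.W hiding nr

open YMomx in
theorem umom_pf {μ : Measure Cf} {α : ℝ} (h : Au μ α) (hy : U_0 μ α) (hs : V_sum)
    (hp : U_pair μ α) : U_mom μ := by
  intro ε hε
  have a0 := h.a0
  have a1 := h.a1
  obtain ⟨e, e0, e1, e2⟩ : ∃ e : ℝ, 0 < e ∧ e ≤ ε / 2 ∧ e ≤ α :=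
    ⟨min (ε / 2) α, lt_min (by linarith) a0, min_le_left _ _, min_le_right _ _⟩
  obtain ⟨C, C1, hC⟩ := hp e e0
  obtain ⟨D, D1, hD⟩ := hy.pol e e0
  refine ⟨14 * D * (132 * C), by nlinarith, fun R hR => ?_⟩
  have : IsProbabilityMeasure μ := h.mod.prob
  have r1 : (1 : ℝ) ≤ R := by exact_mod_cast hR
  have r0 : (0 : ℝ) < R := by linarith
  have p0 : 0 < pcm μ true 0 (7 * (R + 1)) := h.rsw.2 _
  have d1 := (hD (7 * (R + 1)) (by omega)).1
  have l1 := low (b := α + e) (by linarith) (by linarith) hR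
  have hm : ((blk R).card : ℝ) * pcm μ true 0 (7 * (R + 1)) =
      ∑ x ∈ blk R, μ.real (Ax x (7 * (R + 1))) := by
    rw [Finset.sum_congr rfl fun x _ => (hy.ax x _).2.1, sum_const, nsmul_eq_mul]
  have q1 : (1 : ℝ) ≤ (R : ℝ) ^ (2 - (α - e)) := Real.one_le_rpow r1 (by linarith)
  have hS : ∑ x ∈ blk R, ∑ y ∈ blk R, μ.real (Ax x (7 * (R + 1)) ∩ Ax y (7 * (R + 1))) ≤
      ((blk R).card : ℝ) * (33 * C * (R : ℝ) ^ (2 - (α - e)) * pcm μ true 0 (7 * (R + 1))) := by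
    rw [← nsmul_eq_mul]
    refine Finset.sum_le_card_nsmul _ _ _ fun x hx => ?_
    rw [← Finset.add_sum_erase _ _ hx, Set.inter_self, (hy.ax x _).2.1]
    have a1 : ∑ y ∈ (blk R).erase x, μ.real (Ax x (7 * (R + 1)) ∩ Ax y (7 * (R + 1))) ≤
        C * (∑ y ∈ (blk R).erase x, (nr (x - y) : ℝ) ^ (-(α - e))) *
          pcm μ true 0 (7 * (R + 1)) := by
      rw [Finset.mul_sum, Finset.sum_mul]
      exact Finset.sum_le_sum fun y hy => hC (R + 1) x y (nr_lt hx)
        (nr_lt (Finset.mem_erase.1 hy).2) (nr_pos (sub_ne_zero.2 (Finset.mem_erase.1 hy).1.symm))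
    have a2 := shift hs (a := α - e) (by linarith) (by linarith) hR hx
    have a3 := mul_le_mul_of_nonneg_right
      (mul_le_mul_of_nonneg_left a2 (by linarith : 0 ≤ C)) p0.le
    have a4 : 1 * pcm μ true 0 (7 * (R + 1)) ≤
        C * (R : ℝ) ^ (2 - (α - e)) * pcm μ true 0 (7 * (R + 1)) :=
      mul_le_mul_of_nonneg_right (by nlinarith) p0.le
    linarith
  have c1 := card_blk R
  have c0 : (0 : ℝ) < (blk R).card := lt_of_lt_of_le (by positivity) c1
  have k := pz μ (blk R) (fun x => Ax x (7 * (R + 1)))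
    (fun x => ((h.base.loc _ _).2 _ (hy.ax x _).1).1) (fun ω => (ZZ R (7 * (R + 1)) ω : ℝ))
    (fun ω => by simp [ZZ, Set.indicator_apply]) _ _
    ((R : ℝ) ^ 2 * pcm μ true 0 (7 * (R + 1)) / 2) hm (by positivity) (by positivity) hS
    (by gcongr)
  have s1 : (R : ℝ) ^ (-ε) ≤ (R : ℝ) ^ (-(α + e)) * (R : ℝ) ^ (α - e) := by
    rw [← Real.rpow_add r0]
    exact Real.rpow_le_rpow_of_exponent_le r1 (by linarith)
  have s2 : (R : ℝ) ^ (α - e) * (R : ℝ) ^ (2 - (α - e)) = (R : ℝ) ^ 2 := by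
    rw [← Real.rpow_add r0, add_sub_cancel, Real.rpow_two]
  have w0 : 0 < (R : ℝ) ^ (α - e) := by positivity
  generalize μ.real {ω | (R : ℝ) ^ 2 * pcm μ true 0 (7 * (R + 1)) / 2 ≤ ZZ R (7 * (R + 1)) ω} = P
    at k ⊢
  generalize pcm μ true 0 (7 * (R + 1)) = p at *
  generalize ((blk R).card : ℝ) = N at *
  generalize (R : ℝ) ^ (2 - (α - e)) = Q at *
  generalize (R : ℝ) ^ (α - e) = W at *
  have u1 : N * p ≤ 132 * C * Q * P :=
    le_of_mul_le_mul_left (by linarith : N * p * (N * p) ≤ N * p * (132 * C * Q * P))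
      (mul_pos c0 p0)
  have u2 : W * p ≤ 132 * C * P := by
    have := mul_le_mul_of_nonneg_right c1 p0.le
    rw [← s2] at this
    exact le_of_mul_le_mul_left (by linarith : Q * (W * p) ≤ Q * (132 * C * P)) (by linarith)
  have u3 : (R : ℝ) ^ (-(α + e)) ≤ 14 * (D * p) := by linarith
  calc (R : ℝ) ^ (-ε) ≤ 14 * (D * p) * W := s1.trans (mul_le_mul_of_nonneg_right u3 w0.le)
    _ = 14 * D * (W * p) := by ring
    _ ≤ 14 * D * (132 * C * P) := mul_le_mul_of_nonneg_left u2 (by linarith)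
    _ = _ := by ring

end Vale.Agent.P167Q.U
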