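import Vale.Agent.P167U.UStm
import Vale.Agent.P167Q.YPair

/-! P167U: two arms from two points. -/

open Finset Filter Topology MeasureTheory
open scoped Classical

namespace Vale.Agent.P167Q.U

open Vale.Agent.P167Q.W hiding nr

namespace UPairx

theorem third {μ : Measure Cf} {α : ℝ} (h : Au μ α) {b C : ℝ} (hb : 0 ≤ b) (hb1 : b ≤ 1) (hC : 1 ≤ C)
    (hp : ∀ k : ℕ, 1 ≤ k → (k : ℝ) ^ (-b) ≤ C * pcm μ true 0 k) : ∃ K : ℝ, 0 ≤ K ∧
    ∀ a d D : ℕ, 1 ≤ d → 1 ≤ D → a + 72 ≤ 10 * d →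
      pam μ a D * (d : ℝ) ^ (-b) ≤ K * pcm μ true 0 D := by
  haveI : IsProbabilityMeasure μ := h.mod.prob
  obtain ⟨c, hc, hr⟩ := h.ring
  refine ⟨60 * C * (1 + 5 / c), by positivity, fun a d D hd hD ha => ?_⟩
  have hd0 : (0 : ℝ) < d := by exact_mod_cast hd
  have q0 : 0 ≤ pam μ a D := measureReal_nonneg
  have q1 : pam μ a D ≤ 1 := measureReal_le_one
  have p0 : 0 ≤ pcm μ true 0 D := measureReal_nonneg
  have key : ∀ n : ℕ, 1 ≤ n → n ≤ 60 * d → (d : ℝ) ^ (-b) ≤ 60 * C * pcm μ true 0 n := by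
    intro n n1 n2
    have a1 := YPairx.rp (x := n) (y := d) (m := 60) (by exact_mod_cast n1) hd0 (by norm_num)
      (by exact_mod_cast n2) hb hb1
    have a2 := hp n n1
    linarith
  have hK : 0 ≤ 60 * C := by linarith
  have hc5 : 0 ≤ 5 / c := by positivity
  by_cases hv : 6 * (a + 72) ≤ D
  · have a1 := key (6 * (a + 72)) (by omega) (by omega)
    have a2 := hr 0 (a + 72) D (by omega) (by omega) hv
    have a3 := (h.sym true a D).2
    have a4 := h.sub.mc true (a + 1) (a + 72 - 1) D D (by omega) le_rfl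
    have r0 : 0 ≤ pcm μ true 0 (6 * (a + 72)) := measureReal_nonneg
    have a5 : pam μ a D * pcm μ true 0 (6 * (a + 72)) ≤ 5 / c * pcm μ true 0 D := by
      rw [div_mul_eq_mul_div, le_div_iff₀ hc]
      have a6 : pam μ a D * pcm μ true 0 (6 * (a + 72)) ≤
          5 * pcm μ true (a + 72 - 1) D * pcm μ true 0 (6 * (a + 72)) :=
        mul_le_mul_of_nonneg_right (by linarith) r0
      have a7 := mul_le_mul_of_nonneg_right a6 hc.le
      linarith
    have a6 := mul_le_mul_of_nonneg_left a1 q0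
    have a7 := mul_le_mul_of_nonneg_left a5 hK
    have a8 := mul_nonneg hK p0
    linarith
  · have a1 := key D hD (by omega)
    have t0 : 0 ≤ (d : ℝ) ^ (-b) := Real.rpow_nonneg hd0.le _
    have a2 := mul_le_mul_of_nonneg_right q1 t0
    have a3 := mul_nonneg (mul_nonneg hK hc5) p0
    linarith

theorem num (g d : ℕ) (h : 4 * g + 9 < d) :
    ∃ k : ℕ, 1 ≤ k ∧ g * (k + 2) + k + 3 ≤ d ∧ d ≤ (4 * g + 9) * k := by
  obtain ⟨e, rfl⟩ : ∃ e, d = e + (2 * g + 3) := ⟨d - (2 * g + 3), by omega⟩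
  have a1 := Nat.div_mul_le_self e (g + 1)
  have a2 := Nat.lt_mul_div_succ e (Nat.succ_pos g)
  have a3 : 1 ≤ e / (g + 1) := (Nat.le_div_iff_mul_le (Nat.succ_pos g)).2 (by omega)
  refine ⟨e / (g + 1), a3, ?_, ?_⟩
  · generalize e / (g + 1) = k at *
    nlinarith
  · rw [Nat.succ_eq_add_one] at a2
    generalize e / (g + 1) = k at *
    nlinarith [Nat.mul_le_mul_left g a3]

end UPairx

theorem upair_pf {μ : Measure Cf} {α : ℝ} (h : Au μ α) (hy : U_0 μ α) (h3 : U_three μ) :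
    U_pair μ α := by
  haveI : IsProbabilityMeasure μ := h.mod.prob
  intro ε hε
  have α0 := h.a0
  have α1 := h.a1
  obtain ⟨δ, hδ, hδ1, hδ2⟩ : ∃ δ : ℝ, 0 < δ ∧ 3 * δ ≤ ε ∧ 3 * δ ≤ α :=
    ⟨min ε α / 3, by positivity, by linarith [min_le_left ε α], by linarith [min_le_right ε α]⟩
  obtain ⟨C, hC, hp⟩ := hy.pol δ hδ
  obtain ⟨K, hK, ht⟩ := UPairx.third h (b := α + δ) (by linarith) (by linarith) hC
    fun k hk => (hp k hk).1
  obtain ⟨g, -, h3⟩ := h3
  obtain ⟨N, hN⟩ : ∃ N : ℕ, N = 4 * g + 9 := ⟨_, rfl⟩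
  have N1 : (1 : ℝ) ≤ N := by exact_mod_cast (show 1 ≤ N by omega)
  have hK4 : 0 ≤ 4 * K := by positivity
  have hM : 0 ≤ (N * C) ^ 2 * (4 * K) := by positivity
  refine ⟨(N * C) ^ 2 * (4 * K) + N, by linarith, fun u x y hx hyu hd => ?_⟩
  have hdu : nr (x - y) + 2 ≤ 2 * u := by
    unfold nr at hx hyu ⊢
    rw [Prod.fst_sub, Prod.snd_sub]
    omega
  have hd1 : (1 : ℝ) ≤ nr (x - y) := by exact_mod_cast hd
  have hd0 : (0 : ℝ) < nr (x - y) := by linarith
  have p0 : 0 ≤ pcm μ true 0 (7 * u) := measureReal_nonneg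
  have w0 : 0 ≤ (nr (x - y) : ℝ) ^ (-(α - 3 * δ)) := Real.rpow_nonneg hd0.le _
  have w1 : (nr (x - y) : ℝ) ^ (-(α - 3 * δ)) ≤ (nr (x - y) : ℝ) ^ (-(α - ε)) :=
    Real.rpow_le_rpow_of_exponent_le hd1 (by linarith)
  refine le_trans ?_ (mul_le_mul_of_nonneg_right
    (mul_le_mul_of_nonneg_left w1 (by linarith)) p0)
  have wp := mul_nonneg w0 p0
  by_cases hs : nr (x - y) ≤ N
  · have a1 : μ.real (Ax x (7 * u) ∩ Ax y (7 * u)) ≤ pcm μ true 0 (7 * u) := by
      rw [← (hy.ax x (7 * u)).2.1]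
      exact measureReal_mono Set.inter_subset_left
    have a2 := YPairx.rp (x := nr (x - y)) (y := 1) (m := N) (b := α - 3 * δ) hd0 one_pos
      N1 (by rw [mul_one]; exact_mod_cast hs) (by linarith) (by linarith)
    rw [Real.one_rpow] at a2
    have a3 := mul_le_mul_of_nonneg_right a2 p0
    have a4 := mul_nonneg hM wp
    linarith
  · obtain ⟨k, k0, k1, k4⟩ := UPairx.num g (nr (x - y)) (by omega)
    rw [← hN] at k4
    have a1 := h3 x y k (7 * u) k1 (by omega)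
    have a2 := ht (2 * nr (x - y)) (nr (x - y)) (7 * u) hd (by omega) (by omega)
    have a3 := YPairx.rp (x := nr (x - y)) (y := k) (m := N) (b := α - δ) hd0
      (by exact_mod_cast k0) N1 (by exact_mod_cast k4) (by linarith) (by linarith)
    have a4 : pcm μ true 0 k ≤ N * C * (nr (x - y) : ℝ) ^ (-(α - δ)) := by
      have a5 := mul_le_mul_of_nonneg_left a3 (by linarith : 0 ≤ C)
      linarith [(hp k k0).2]
    have a5 : (nr (x - y) : ℝ) ^ (-(α - δ)) * (nr (x - y) : ℝ) ^ (-(α - δ)) =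
        (nr (x - y) : ℝ) ^ (-(α + δ)) * (nr (x - y) : ℝ) ^ (-(α - 3 * δ)) := by
      rw [← Real.rpow_add hd0, ← Real.rpow_add hd0]
      ring_nf
    have a6 := YPairx.fin (P := μ.real (Ax x (7 * u) ∩ Ax y (7 * u)))
      (r := 4 * pam μ (2 * nr (x - y)) (7 * u)) (Real.rpow_pos_of_pos hd0 _) measureReal_nonneg p0
      hK4 (a1.trans_eq (by unfold pcm; ring)) a4 (by linarith) a5
    have a7 := mul_nonneg (zero_le_one.trans N1) wp
    linarith

end Vale.Agent.P167Q.U
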