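import Vale.Agent.P167U.UStm
import Vale.Agent.P167Q.YPol

/-! P167U: the polynomial lower bound for the two point function. -/

open Finset Filter Topology MeasureTheory
open scoped Classical

namespace Vale.Agent.P167Q.U

open Vale.Agent.P167Q.W hiding nr

theorem upl_pf {μ : Measure Cf} {α : ℝ} (h : Au μ α) (hy : U_0 μ α) (_hu : U_tup μ)
    (hr : U_ring μ) : U_pl μ α := by
  intro ε hε
  have := h.mod.prob
  have a0 := h.a0
  obtain ⟨c, c0, hc⟩ := hr
  obtain ⟨C, hC, h1⟩ := hy.pol (ε / 2) (by linarith)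
  have hK : 0 ≤ (511 ^ (α + ε / 2) * C) * (511 ^ (α + ε / 2) * C) / c := by positivity
  refine ⟨1 + (511 ^ (α + ε / 2) * C) * (511 ^ (α + ε / 2) * C) / c, by linarith,
    fun x hx he => ?_⟩
  have r0 : (0 : ℝ) < nr x := by exact_mod_cast hx
  have key : ∀ k : ℕ, 1 ≤ k → k ≤ 511 * nr x → (nr x : ℝ) ^ (-(α + ε / 2)) ≤
      (511 ^ (α + ε / 2) * C) * pcm μ true 0 k := fun k k1 k2 => by
    have h4 := YPolx.cmp (k := nr x) (r := k) (N := 511) (b := α + ε / 2) r0
      (by exact_mod_cast k1) (by norm_num) (by exact_mod_cast k2) (by linarith)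
    rw [mul_assoc]
    exact h4.trans (mul_le_mul_of_nonneg_left (h1 k k1).1 (by positivity))
  obtain ⟨G, W, g1, g2, g3, g4⟩ := hc (nr x + 72) (by omega)
  obtain ⟨a1, a2, a3⟩ := hy.ax x (7 * (nr x + 72))
  have f1 : μ.real G * μ.real (Ax x (7 * (nr x + 72))) ≤
      μ.real (G ∩ Ax x (7 * (nr x + 72))) := h.mod.fkg _ _ _ _ g1 a1 g2 (a3 he)
  have f2 : μ.real (G ∩ Ax x (7 * (nr x + 72))) ≤ tpm μ x :=
    measureReal_mono fun ω hω => g4 ω hω.1 x he (by omega) hω.2
  rw [a2] at f1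
  have f3 : c * pcm μ true 0 (6 * (nr x + 72)) * pcm μ true 0 (7 * (nr x + 72)) ≤ tpm μ x :=
    (mul_le_mul_of_nonneg_right g3 measureReal_nonneg).trans (f1.trans f2)
  have f4 := mul_le_mul (key (6 * (nr x + 72)) (by omega) (by omega))
    (key (7 * (nr x + 72)) (by omega) (by omega)) (by positivity)
    (mul_nonneg (by positivity) measureReal_nonneg)
  rw [← Real.rpow_add r0, show -(α + ε / 2) + -(α + ε / 2) = -(2 * α + ε) by ring] at f4
  refine le_trans ?_ (mul_le_mul_of_nonneg_right (le_add_of_nonneg_left zero_le_one)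
    (measureReal_nonneg : 0 ≤ tpm μ x))
  refine f4.trans (le_trans (le_of_eq ?_) (mul_le_mul_of_nonneg_left f3 hK))
  field_simp

end Vale.Agent.P167Q.U
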