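import Vale.Agent.P167U.UStm
import Vale.Agent.P167Q.YPol

open Finset Filter Topology MeasureTheory
open scoped Classical

namespace Vale.Agent.P167Q.U

open Vale.Agent.P167Q.W hiding nr

namespace UPux

theorem pick (g r : ℕ) (hr : 3 * g + 4 ≤ r) :
    ∃ k : ℕ, 1 ≤ k ∧ g * (k + 2) + k + 3 ≤ r ∧ r ≤ (4 * g + 5) * k := by
  obtain ⟨s, rfl⟩ : ∃ s, r = s + (2 * g + 3) := ⟨r - (2 * g + 3), by omega⟩
  have k1 : 1 ≤ s / (g + 1) := (Nat.one_le_div_iff (by omega)).2 (by omega)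
  have k2 : s / (g + 1) * (g + 1) ≤ s := Nat.div_mul_le_self _ _
  have k3 : s < s / (g + 1) * (g + 1) + (g + 1) := Nat.lt_div_mul_add (by omega)
  generalize s / (g + 1) = k at k1 k2 k3
  refine ⟨k, k1, by nlinarith, ?_⟩
  obtain ⟨j, rfl⟩ : ∃ j, k = j + 1 := ⟨k - 1, by omega⟩
  nlinarith [Nat.zero_le (g * j)]

end UPux

theorem upu_pf {μ : Measure Cf} {α : ℝ} (h : Au μ α) (hy : U_0 μ α) (hu : U_tup μ) :
    U_pu μ α := by
  intro ε hε
  have := h.mod.prob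
  have ha := h.a0
  obtain ⟨δ, d0, d1, d2⟩ : ∃ δ : ℝ, 0 < δ ∧ δ ≤ ε ∧ δ ≤ 2 * α :=
    ⟨min ε (2 * α), lt_min hε (by linarith), min_le_left _ _, min_le_right _ _⟩
  obtain ⟨C, hC, h1⟩ := hy.pol (δ / 2) (by linarith)
  obtain ⟨g, -, hg⟩ := hu.2
  have hN : (0 : ℝ) < ((4 * g + 5 : ℕ) : ℝ) := by exact_mod_cast (by omega : 0 < 4 * g + 5)
  have hA : 0 ≤ 2 * (C * C) * ((4 * g + 5 : ℕ) : ℝ) ^ (2 * α - δ) := by positivity
  refine ⟨1 + 2 * (C * C) * ((4 * g + 5 : ℕ) : ℝ) ^ (2 * α - δ), by linarith, fun x hx => ?_⟩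
  have r1 : (1 : ℝ) ≤ nr x := by exact_mod_cast hx
  obtain ⟨k, k1, k2, k3⟩ : ∃ k : ℕ, 1 ≤ k ∧ nr x ≤ (4 * g + 5) * k ∧
      tpm μ x ≤ 2 * (C * C) * (k : ℝ) ^ (-(2 * α - δ)) := by
    by_cases h5 : 3 * g + 4 ≤ nr x
    · obtain ⟨k, k1, k2, k3⟩ := UPux.pick g (nr x) h5
      refine ⟨k, k1, k3, (hg x k k2).trans ?_⟩
      have h2 := (h1 _ k1).2
      have h3 : (0 : ℝ) < (k : ℝ) := by exact_mod_cast k1
      rw [mul_assoc 2]
      refine mul_le_mul_of_nonneg_left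
        ((mul_self_le_mul_self measureReal_nonneg h2).trans (le_of_eq ?_)) (by norm_num)
      rw [mul_mul_mul_comm, ← Real.rpow_add h3]
      exact congrArg (fun t => C * C * (k : ℝ) ^ t) (by ring)
    · refine ⟨1, le_rfl, by omega, ?_⟩
      rw [Nat.cast_one, Real.one_rpow, mul_one]
      have h6 : tpm μ x ≤ 1 := measureReal_le_one
      have h7 := one_le_mul_of_one_le_of_one_le hC hC
      linarith
  have h4 := YPolx.cmp (k := k) (r := nr x) (N := ((4 * g + 5 : ℕ) : ℝ)) (b := 2 * α - δ)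
    (by exact_mod_cast k1) (by linarith) hN (by exact_mod_cast k2) (by linarith)
  have h5 : (nr x : ℝ) ^ (-(2 * α - δ)) ≤ (nr x : ℝ) ^ (-(2 * α - ε)) :=
    Real.rpow_le_rpow_of_exponent_le r1 (by linarith)
  have h6 : tpm μ x ≤ 2 * (C * C) * ((4 * g + 5 : ℕ) : ℝ) ^ (2 * α - δ) *
      (nr x : ℝ) ^ (-(2 * α - ε)) := by
    refine k3.trans ?_
    rw [mul_assoc (2 * (C * C))]
    exact mul_le_mul_of_nonneg_left (h4.trans (mul_le_mul_of_nonneg_left h5 (by positivity)))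
      (by positivity)
  exact h6.trans (mul_le_mul_of_nonneg_right (by linarith) (by positivity))

end Vale.Agent.P167Q.U
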