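import Vale.Agent.P167U.UStm
import Vale.Agent.P167Q.YRing

/-! P167U: a ring of crossings joins every long black arm to the origin. -/

open Finset Filter Topology MeasureTheory
open scoped Classical

namespace Vale.Agent.P167Q.U

open Vale.Agent.P167Q.W hiding nr
open Vale.Agent.P152 (Vx Site v6 src)

theorem uring_pf {μ : Measure Cf} {α : ℝ} (h : Au μ α) : U_ring μ := by
  have hb := h.base
  have hd := h.dep
  obtain ⟨c, c0, hc⟩ := h.cir.1
  refine ⟨c, c0, fun u hu => ?_⟩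
  have l0 : Le (box (3 * u) ×ˢ Finset.univ) (Ci u (3 * u)) := hb.ev.2.2 _ _ _ fun m hm _ => by
    simp only [P145.Rs.mem_sq, Prod.fst_zero, Prod.snd_zero, src] at hm
    simp only [Finset.mem_product, mem_box, Finset.mem_univ, and_true]
    omega
  have l1 : Le ((box (3 * u) ×ˢ Finset.univ).image v6)
      ((fun (ω : Cf) (m : Vx) => ω (v6 m)) ⁻¹' Ci u (3 * u)) := fun ω ω' k =>
    l0 _ _ fun m hm => k _ (Finset.mem_image_of_mem _ hm)
  have u1 : IsUpperSet ((fun (ω : Cf) (m : Vx) => ω (v6 m)) ⁻¹' Ci u (3 * u)) :=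
    (hb.ev.2.1 _ P145.Rs.up_cir).preimage fun ω ω' h m => h (v6 m)
  have l2 := HFkx.le_inter (HFkx.le_mono l1 Finset.subset_union_left)
    (HFkx.le_mono (hd.ba true 0 (6 * u)) Finset.subset_union_right)
  have f2 := h.mod.fkg _ _ _ _ l1 (hd.ba true 0 (6 * u)) u1 (hd.up _ _)
  have f3 : c ≤ μ.real ((fun (ω : Cf) (m : Vx) => ω (v6 m)) ⁻¹' Ci u (3 * u)) := hc u hu
  refine ⟨_, _, l2, u1.inter (hd.up _ _),
    (mul_le_mul_of_nonneg_right f3 measureReal_nonneg).trans f2, fun ω hω x ex hx h2 => ?_⟩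
  exact YRingx.det hb.bas hu hω.1 hω.2 x ex hx h2

end Vale.Agent.P167Q.U
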