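import Vale.Agent.P167U.UStm
import Vale.Agent.P167Q.YPair

/-! P167U: two arms from two points, three events. -/

open Finset Filter Topology MeasureTheory
open scoped Classical

namespace Vale.Agent.P167Q.U

open Vale.Agent.P167Q.W hiding nr

theorem uthree_pf {μ : Measure Cf} {α : ℝ} (h : Au μ α) (hy : U_0 μ α) (hd : U_dec μ) :
    U_three μ := by
  have := h.mod.prob
  obtain ⟨g, g1, hd⟩ := hd
  refine ⟨g, g1, fun x y k D h1 h2 => ?_⟩
  have hx := hd x k
  have hy' := hd y k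
  generalize g * (k + 2) = G at h1 hx hy'
  have l := h.az.la x (2 * nr (x - y)) D (by omega) h2
  have e : μ.real (AA x (2 * nr (x - y)) D) = pam μ (2 * nr (x - y)) D := by
    have e1 : AA x (2 * nr (x - y)) D = sh x ⁻¹' AA 0 (2 * nr (x - y)) D := by
      ext ω
      simp only [h.az.un, Set.mem_preimage, Set.mem_union, h.az.shf, zero_add]
      cases decide (Odd (x.1 + x.2)) <;> simp [or_comm]
    rw [e1, (h.az.zero true _ _).2, pam, Measure.real, Measure.real, (h.mod.inv x).measure_preimage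
      ((h.base.loc Sq _).2 _ (h.dep.arm0 _ D)).1.nullMeasurableSet]
  have hs : Ax x D ∩ Ax y D ⊆ Ax x k ∩ (Ax y k ∩ AA x (2 * nr (x - y)) D) := fun ω hω =>
    ⟨YPairx.ax_mono (by omega) hω.1, YPairx.ax_mono (by omega) hω.2,
      x, mem_bz.2 (by omega), hω.1⟩
  have n : x.1 - y.1 ≤ nr (x - y) ∧ y.1 - x.1 ≤ nr (x - y) ∧ x.2 - y.2 ≤ nr (x - y) ∧
      y.2 - x.2 ≤ nr (x - y) ∧ ((nr (x - y) : ℤ) ≤ x.1 - y.1 ∨ (nr (x - y) : ℤ) ≤ y.1 - x.1 ∨
        (nr (x - y) : ℤ) ≤ x.2 - y.2 ∨ (nr (x - y) : ℤ) ≤ y.2 - x.2) := by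
    unfold nr
    rw [Prod.fst_sub, Prod.snd_sub]
    omega
  generalize nr (x - y) = d at *
  have a1 := hx _ _ (YPairx.le_inter (hy.ax y k).1 l) (disjoint_left.2 fun z z1 z2 => by
    simp only [Finset.mem_union, Finset.mem_sdiff, mem_bz] at z1 z2
    omega)
  have a2 := hy' _ _ l (disjoint_left.2 fun z z1 z2 => by
    simp only [Finset.mem_sdiff, mem_bz] at z1 z2
    omega)
  rw [e] at a2
  have p0 : 0 ≤ pcm μ true 0 k := measureReal_nonneg
  linarith [measureReal_mono (μ := μ) hs, mul_le_mul_of_nonneg_left a2 p0]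

end Vale.Agent.P167Q.U
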