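import Vale.Agent.P167U.UStm
import Vale.Agent.P167Q.YTp

/-! Upper bound for the two point function. -/

open Finset Filter Topology MeasureTheory
open scoped Classical

namespace Vale.Agent.P167Q.U

open Vale.Agent.P167Q.W hiding nr

theorem utup_pf {μ : Measure Cf} {α : ℝ} (h : Au μ α) (hy : U_0 μ α) (hd : U_dec μ) :
    U_tup μ := by
  have hb := h.base.bas
  obtain ⟨g, hg, hdec⟩ := hd
  refine ⟨fun x => ?_, g, hg, fun x k hk => ?_⟩
  · rw [YTpx.un hb]
    exact MeasurableSet.iUnion fun K => ((h.base.loc _ _).2 _ (YTpx.pk_loc hb K x)).1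
  · have hdis : Disjoint (bz x (k + 1)) (bz 0 (g * (k + 2) + 1)) := by
      generalize g * (k + 2) = G at hk ⊢
      refine disjoint_left.mpr fun y h1 h2 => ?_
      have h3 := mem_bz.mp h1
      have h4 := mem_bz.mp h2
      simp only [Prod.fst_zero, Prod.snd_zero] at h4
      unfold nr at hk
      omega
    have hp := hdec 0 k (bz x (k + 1)) (Ax x k) (hy.ax x k).1 hdis
    generalize g * (k + 2) = G at hk
    have hsub : {ω : Cf | x ∈ clus ω 0} ⊆ Ax 0 k ∩ Ax x k := by
      intro ω hω
      refine ⟨fun hs => ?_, fun hs => ?_⟩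
      · have h1 := mem_bz.mp (hs hω)
        simp only [Prod.fst_zero, Prod.snd_zero] at h1
        unfold nr at hk
        omega
      · have h0 : (0 : Sq) ∈ clus ω x := by
          rw [hb.cleq ω 0 x hω]
          exact hb.self ω 0
        have h1 := mem_bz.mp (hs h0)
        simp only [Prod.fst_zero, Prod.snd_zero] at h1
        unfold nr at hk
        omega
    have := h.mod.prob
    rw [(hy.ax x k).2.1] at hp
    exact (measureReal_mono hsub).trans hp

end Vale.Agent.P167Q.U
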