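import Vale.Agent.P167U.UStm
import Vale.Agent.P167Q.YVlo

open Finset Filter Topology MeasureTheory
open scoped Classical

namespace Vale.Agent.P167Q.U

open Vale.Agent.P167Q.W hiding nr

namespace UVlox

lemma glue {μ : Measure Cf} {α : ℝ} (h : Au μ α) (hy : U_0 μ α) {G : Set Cf} {W : Finset Sq}
    {R k n : ℕ} {t : ℝ} (g1 : Le W G) (g2 : IsUpperSet G) (hn : n ≤ t)
    (g3 : ∀ ω ∈ G, ∀ x : Sq, Even (x.1 + x.2) → nr x < R + 1 → ω ∈ Ax x k → x ∈ clus ω 0) :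
    μ.real G * μ.real {ω | t ≤ ZZ R k ω} ≤ volm μ n := by
  have := h.mod.prob
  have b1 : Le ((blk R).biUnion fun x => bz x (k + 1)) {ω | t ≤ ZZ R k ω} := fun ω ω' e => by
    have : ZZ R k ω = ZZ R k ω' := congrArg card (filter_congr fun x hx =>
      ((hy.ax x k).1 ω ω' fun v hv => e v (mem_biUnion.2 ⟨x, hx, hv⟩)).to_iff)
    exact congrArg (fun z : ℕ => t ≤ z) this
  have b2 : IsUpperSet {ω | t ≤ ZZ R k ω} := fun ω ω' e q => by
    have : ZZ R k ω ≤ ZZ R k ω' := card_le_card fun x hx => mem_filter.2 ⟨(mem_filter.1 hx).1,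
      (hy.ax x k).2.2 (mem_filter.1 (mem_filter.1 hx).1).2 e (mem_filter.1 hx).2⟩
    exact le_trans (show t ≤ ZZ R k ω from q) (Nat.cast_le.2 this)
  refine (h.mod.fkg _ _ _ _ g1 b1 g2 b2).trans (measureReal_mono fun ω ⟨q1, q2⟩ => ?_)
  have q3 : n ≤ ZZ R k ω := Nat.cast_le.1 (hn.trans q2)
  refine le_trans (Nat.cast_le.2 q3) ((Set.encard_coe_eq_coe_finsetCard _).ge.trans
    (Set.encard_le_encard fun x hx => ?_))
  obtain ⟨x1, x2⟩ := mem_filter.1 (mem_coe.1 hx)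
  obtain ⟨x3, x4⟩ := mem_filter.1 x1
  refine g3 ω q1 x x4 ?_ x2
  have := mem_box.1 x3
  unfold nr
  omega

lemma num1 {α b e L r ε K : ℝ} (a0 : 0 < α) (a1 : α ≤ 1 / 4) (b1 : b ≤ 4 / 7) (e0 : 0 < e)
    (e2 : e ≤ 1 / 4) (e1 : 3 * e ≤ ε) (L0 : 0 ≤ L) (r2 : r ≤ (b + e) * L + 1)
    (n3 : 14 + K ≤ e * L) : (α + 2 * e) * r + 13 * (α + e) + K ≤ (α * b + ε) * L := by
  have h0 : 0 ≤ e * L := by positivity
  have s2 := mul_le_mul_of_nonneg_left r2 (show 0 ≤ α + 2 * e by linarith)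
  have t1 := mul_le_mul_of_nonneg_right a1 h0
  have t2 := mul_le_mul_of_nonneg_right b1 h0
  have t3 := mul_le_mul_of_nonneg_right e2 h0
  have t4 := mul_le_mul_of_nonneg_right e1 L0
  linarith

lemma num2 {α b e L r K : ℝ} (a1 : α ≤ 1 / 4) (hb : b * (2 - α) = 1) (b1 : b ≤ 4 / 7)
    (e0 : 0 < e) (e2 : e ≤ 1 / 4) (L0 : 0 ≤ L) (r1 : (b + e) * L ≤ r)
    (n2 : 3 * (14 + K) ≤ e * L) : L + 1 + 13 * (α + e) + K ≤ (2 - α - e) * r := by
  have h0 : 0 ≤ e * L := by positivity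
  have s1 := mul_le_mul_of_nonneg_left r1 (show 0 ≤ 2 - α - e by linarith)
  have t0 : b * (2 - α) * L = L := by rw [hb, one_mul]
  have t1 := mul_le_mul_of_nonneg_right a1 h0
  have t2 := mul_le_mul_of_nonneg_right b1 h0
  have t3 := mul_le_mul_of_nonneg_right e2 h0
  linarith

end UVlox

open YVlox UVlox in
theorem uvlo_pf {μ : Measure Cf} {α : ℝ} (h : Au μ α) (hy : U_0 μ α) (hr : U_ring μ)
    (hm : U_mom μ) : U_vlo μ α := by
  intro ε hε
  have a0 := h.a0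
  have a1 := h.a1
  obtain ⟨b, hb, b0, b1, b2⟩ : ∃ b : ℝ, b * (2 - α) = 1 ∧ 1 / 2 ≤ b ∧ b ≤ 4 / 7 ∧
      α / (2 - α) = α * b := by
    have a2 : 0 < 2 - α := by linarith
    refine ⟨1 / (2 - α), one_div_mul_cancel a2.ne', one_div_le_one_div_of_le a2 (by linarith), ?_,
      by ring⟩
    rw [div_le_iff₀ a2]
    linarith
  rw [b2]
  obtain ⟨e, e0, e1, e2⟩ : ∃ e : ℝ, 0 < e ∧ 3 * e ≤ ε ∧ e ≤ 1 / 4 :=
    ⟨min (ε / 3) (1 / 4), by positivity, by linarith [min_le_left (ε / 3) (1 / 4)], min_le_right _ _⟩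
  obtain ⟨c, c0, hc⟩ := hr
  obtain ⟨C₁, c1, h1⟩ := hy.pol e e0
  obtain ⟨C₂, c2, h2⟩ := hm e e0
  have tl : Tendsto (fun n : ℕ => Real.log n) atTop atTop :=
    Real.tendsto_log_atTop.comp tendsto_natCast_atTop_atTop
  filter_upwards [tl.eventually_ge_atTop 142, eventually_gt_atTop 0,
    (tl.const_mul_atTop e0).eventually_ge_atTop (3 * (14 + Real.log C₁)),
    (tl.const_mul_atTop e0).eventually_ge_atTop
      (14 + (Real.log C₁ + Real.log C₂ - Real.log c))] with n n1 n0 n2 n3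
  have en : Real.exp (Real.log n) = n := Real.exp_log (Nat.cast_pos.2 n0)
  generalize Real.log n = L at n1 n2 n3 en ⊢
  have L0 : 0 ≤ L := by linarith
  obtain ⟨R, R0, r1, r2⟩ := exR (x := (b + e) * L) (mul_nonneg (by linarith) L0)
  have r3 : Real.log R ≤ R - 1 := Real.log_le_sub_one_of_pos R0
  have r4 := mul_le_mul_of_nonneg_right (show 1 / 2 ≤ b + e by linarith) L0
  have R1 : 71 ≤ R := by exact_mod_cast (by linarith : (71 : ℝ) ≤ R)
  have lo : ∀ k : ℕ, 1 ≤ k → k ≤ 14 * R →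
      Real.exp (-((α + e) * (Real.log R + 13)) - Real.log C₁) ≤ pcm μ true 0 k := fun k k1 k2 => by
    have k0 : (0 : ℝ) < k := Nat.cast_pos.2 k1
    refine low c1 k0 (by positivity) ?_ (h1 k k1).1
    have k3 : (k : ℝ) ≤ 14 * R := by exact_mod_cast k2
    have k4 := Real.log_le_log k0 k3
    have k5 := Real.log_le_sub_one_of_pos (show (0 : ℝ) < 14 by norm_num)
    rw [Real.log_mul (by norm_num) R0.ne'] at k4
    linarith
  obtain ⟨G, W, g1, g2, g3, g4⟩ := hc (R + 1) (by omega)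
  have p1 := lo (6 * (R + 1)) (by omega) (by omega)
  have p2 := lo (7 * (R + 1)) (by omega) (by omega)
  have p3 := low c2 R0 e0.le le_rfl (h2 R (by omega))
  have eR : (R : ℝ) ^ 2 = Real.exp (Real.log R + Real.log R) := by
    rw [Real.exp_add, Real.exp_log R0, sq]
  generalize Real.log R = r at r1 r2 p1 p2 p3 eR
  have s1 := num1 a0 a1 b1 e0 e2 e1 L0 r2 n3
  have s2 := num2 a1 hb b1 e0 e2 L0 r1 n2
  refine le_trans ?_ (UVlox.glue h hy (t := (R : ℝ) ^ 2 * pcm μ true 0 (7 * (R + 1)) / 2)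
    g1 g2 ?_ g4)
  · refine le_trans ?_ (mul_le_mul ((mul_le_mul_of_nonneg_left p1 c0.le).trans g3) p3
      (Real.exp_pos _).le measureReal_nonneg)
    rw [← Real.exp_log c0, ← Real.exp_add, ← Real.exp_add]
    exact Real.exp_le_exp.2 (by linarith)
  · rw [le_div_iff₀ two_pos, eR, ← en]
    refine le_trans ?_ (mul_le_mul_of_nonneg_left p2 (Real.exp_pos _).le)
    refine (mul_le_mul_of_nonneg_left (show 2 ≤ Real.exp 1 by
      linarith [Real.add_one_le_exp 1]) (Real.exp_pos _).le).trans ?_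
    rw [← Real.exp_add, ← Real.exp_add]
    exact Real.exp_le_exp.2 (by linarith)

end Vale.Agent.P167Q.U
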