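import Vale.Agent.P167U.UStm
import Vale.Agent.P167Q.YVup

/-! P167U: upper bound for the volume tail. -/

open Finset Filter Topology MeasureTheory
open scoped Classical

namespace Vale.Agent.P167Q.U

open Vale.Agent.P167Q.W hiding nr

namespace UVupx

theorem fin {μ : Measure Cf} [IsProbabilityMeasure μ] (hu : U_tup μ) (n R : ℕ) (hn : 0 < n) :
    volm μ n ≤ pcm μ true 0 R + (∑ x ∈ box R, tpm μ x) / n := by
  have hint : ∀ x ∈ box R, Integrable ({ω : Cf | x ∈ clus ω 0}.indicator (1 : Cf → ℝ)) μ :=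
    fun x _ => (integrable_const (1 : ℝ)).indicator (hu.1 x)
  have h1 := mul_meas_ge_le_integral_of_nonneg (μ := μ)
    (f := fun ω => ∑ x ∈ box R, {ω : Cf | x ∈ clus ω 0}.indicator (1 : Cf → ℝ) ω)
    (Eventually.of_forall fun ω => sum_nonneg fun x _ =>
      Set.indicator_nonneg (fun _ _ => zero_le_one) ω) (integrable_finsetSum _ hint) (n : ℝ)
  rw [integral_finsetSum _ hint,
    sum_congr rfl fun x _ => integral_indicator_one (μ := μ) (hu.1 x)] at h1
  have hn' : (0 : ℝ) < n := Nat.cast_pos.2 hn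
  refine le_trans (measureReal_mono (s₂ := BA true 0 R ∪ {ω | (n : ℝ) ≤
    ∑ x ∈ box R, {ω : Cf | x ∈ clus ω 0}.indicator (1 : Cf → ℝ) ω}) fun ω hω => ?_)
    ((measureReal_union_le _ _).trans (add_le_add le_rfl ?_))
  · by_cases hs : clus ω 0 ⊆ box R
    · refine Or.inr ?_
      have e : clus ω 0 = ((box R).filter fun x => x ∈ clus ω 0 : Finset Sq) := by
        ext x
        simp only [coe_filter, Set.mem_ofPred_eq]
        exact ⟨fun h => ⟨hs h, h⟩, fun h => h.2⟩
      have h2 : (n : ℕ∞) ≤ (clus ω 0).encard := hω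
      rw [e, Set.encard_coe_eq_coe_finsetCard] at h2
      have h3 : n ≤ ((box R).filter fun x => x ∈ clus ω 0).card := by exact_mod_cast h2
      have h4 : (n : ℝ) ≤ (((box R).filter fun x => x ∈ clus ω 0).card : ℝ) := Nat.cast_le.2 h3
      refine h4.trans (le_of_eq ?_)
      rw [card_filter, Nat.cast_sum]
      refine sum_congr rfl fun x _ => ?_
      by_cases hx : x ∈ clus ω 0
      · rw [if_pos hx, Set.indicator_of_mem (show ω ∈ {ω : Cf | x ∈ clus ω 0} from hx)]
        simp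
      · rw [if_neg hx, Set.indicator_of_notMem (show ω ∉ {ω : Cf | x ∈ clus ω 0} from hx)]
        simp
    · exact Or.inl ⟨0, by simp [mem_box], by simp, hs⟩
  · rw [le_div_iff₀ hn', mul_comm]
    exact h1

end UVupx

theorem uvup_pf {μ : Measure Cf} {α : ℝ} (h : Au μ α) (hy : U_0 μ α) (hu : U_tup μ)
    (hp : U_pu μ α) (hs : V_sum) : U_vup μ α := by
  have : IsProbabilityMeasure μ := h.mod.prob
  have ha0 := h.a0
  have ha1 := h.a1
  intro ε hε
  obtain ⟨b, hb0, hb1, hb, hq⟩ : ∃ b : ℝ, 0 < b ∧ b ≤ 1 ∧ b * (2 - α) = 1 ∧ α / (2 - α) = α * b := by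
    have h2 : 0 < 2 - α := by linarith
    refine ⟨1 / (2 - α), by positivity, (div_le_one h2).2 (by linarith), by field_simp, by ring⟩
  rw [hq]
  obtain ⟨e, he, he1, he2⟩ : ∃ e : ℝ, 0 < e ∧ 2 * e ≤ ε ∧ e ≤ α :=
    ⟨min (ε / 2) α, lt_min (by positivity) ha0,
      by linarith [min_le_left (ε / 2) α], min_le_right _ _⟩
  obtain ⟨C1, hC1, h1⟩ := hy.pol e he
  obtain ⟨C2, hC2, h2⟩ := hp e he
  filter_upwards [eventually_ge_atTop 1, (Real.tendsto_exp_atTop.comp
    ((Real.tendsto_log_atTop.comp tendsto_natCast_atTop_atTop).const_mul_atTop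
      he)).eventually_ge_atTop (C1 + 1 + 32 * C2)] with n hn hC
  have hn' : (1 : ℝ) ≤ n := by exact_mod_cast hn
  have hn0 : (0 : ℝ) < n := by linarith
  have hC' : C1 + 1 + 32 * C2 ≤ Real.exp (e * Real.log n) := hC
  have ht : 0 ≤ Real.log n := Real.log_nonneg hn'
  have hex : (n : ℝ) = Real.exp (Real.log n) := (Real.exp_log hn0).symm
  generalize Real.log n = t at hC' ht hex ⊢
  have het : 0 ≤ e * t := mul_nonneg he.le ht
  have k1 : b * (e * t) ≤ e * t := mul_le_of_le_one_left het hb1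
  have k2 : b * (2 - α) * t = t := by rw [hb, one_mul]
  have k3 : α * b * t ≤ t := mul_le_of_le_one_left ht (by nlinarith)
  have k4 : 2 * e * t ≤ ε * t := mul_le_mul_of_nonneg_right he1 ht
  have hN : 1 ≤ Real.exp (b * t) := Real.one_le_exp (by positivity)
  obtain ⟨R, hR1, hR2⟩ : ∃ R : ℕ, Real.exp (b * t) ≤ R ∧ (R : ℝ) ≤ 2 * Real.exp (b * t) :=
    ⟨⌈Real.exp (b * t)⌉₊, Nat.le_ceil _,
      by linarith [Nat.ceil_lt_add_one (Real.exp_pos (b * t)).le]⟩
  have hR : 1 ≤ R := by exact_mod_cast hN.trans hR1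
  have hE := Real.exp_pos (-((α * b - e) * t))
  have a1 : (R : ℝ) ^ (-(α - e)) ≤ Real.exp (-((α * b - e) * t)) := by
    refine (Real.rpow_le_rpow_of_nonpos (Real.exp_pos _) hR1 (by linarith)).trans ?_
    rw [← Real.exp_mul]
    exact Real.exp_le_exp.2 (by linarith)
  have a2 : (R : ℝ) ^ (2 - (2 * α - e)) ≤ 4 * (n * Real.exp (-((α * b - e) * t))) := by
    refine (Real.rpow_le_rpow (Nat.cast_nonneg R) hR2 (by linarith)).trans ?_
    rw [Real.mul_rpow (by norm_num) (Real.exp_pos _).le, ← Real.exp_mul, hex, ← Real.exp_add]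
    refine mul_le_mul ?_ (Real.exp_le_exp.2 (by linarith)) (Real.exp_pos _).le (by norm_num)
    refine (Real.rpow_le_rpow_of_exponent_le (by norm_num) (show _ ≤ (2 : ℝ) by linarith)).trans ?_
    norm_num
  have a3 : 1 ≤ n * Real.exp (-((α * b - e) * t)) := by
    rw [hex, ← Real.exp_add]
    exact Real.one_le_exp (by linarith)
  have a4 : ∑ x ∈ box R, tpm μ x ≤ 1 + C2 * (8 * (R : ℝ) ^ (2 - (2 * α - e))) := by
    rw [← add_sum_erase _ _ (show (0 : Sq) ∈ box R by simp [mem_box])]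
    refine add_le_add measureReal_le_one (le_trans (sum_le_sum fun x hx => h2 x ?_) ?_)
    · have := ne_of_mem_erase hx
      by_contra hc
      refine this (Prod.ext ?_ ?_) <;> simp only [nr, Prod.fst_zero, Prod.snd_zero] at hc ⊢ <;> omega
    · rw [← mul_sum]
      exact mul_le_mul_of_nonneg_left (hs _ (by linarith) (by linarith) R hR) (by linarith)
  have a5 : (∑ x ∈ box R, tpm μ x) / n ≤ (1 + 32 * C2) * Real.exp (-((α * b - e) * t)) := by
    rw [div_le_iff₀ hn0]
    have := mul_le_mul_of_nonneg_left a2 (show 0 ≤ 8 * C2 by linarith)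
    linarith
  have a6 := (h1 R hR).2.trans (mul_le_mul_of_nonneg_left a1 (by linarith))
  calc volm μ n ≤ _ := UVupx.fin hu n R hn
    _ ≤ (C1 + 1 + 32 * C2) * Real.exp (-((α * b - e) * t)) := by linarith
    _ ≤ Real.exp (e * t) * Real.exp (-((α * b - e) * t)) := mul_le_mul_of_nonneg_right hC' hE.le
    _ ≤ _ := by
      rw [← Real.exp_add]
      exact Real.exp_le_exp.2 (by linarith)

end Vale.Agent.P167Q.U
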