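import Vale.Agent.P167Q.YVsum
import Vale.Agent.P167U.UCl
import Vale.Agent.P167U.U0
import Vale.Agent.P167U.UDec
import Vale.Agent.P167U.UTup
import Vale.Agent.P167U.URing
import Vale.Agent.P167U.UPu
import Vale.Agent.P167U.UPl
import Vale.Agent.P167U.UGc
import Vale.Agent.P167U.UVup
import Vale.Agent.P167U.UThree
import Vale.Agent.P167U.UPair
import Vale.Agent.P167U.UMom
import Vale.Agent.P167U.UVlo
import Vale.Agent.P167U.UGd

open MeasureTheory

namespace Vale.Agent.P167Q.U

theorem goalU_of {μ : Measure Cf} {α : ℝ} (h : Au μ α) : GoalC μ α ∧ GoalD μ α :=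
  have c := ucl_pf h.base
  have y := u0_pf h
  have d := udec_pf h y
  have tu := utup_pf h y d
  have tr := uring_pf h
  have pu := upu_pf h y tu
  ⟨ugc_pf c pu (upl_pf h y tu tr), ugd_pf c (uvup_pf h y tu pu vsum_pf)
    (uvlo_pf h y tr (umom_pf h y vsum_pf (upair_pf h y (uthree_pf h y d))))⟩

end Vale.Agent.P167Q.U
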