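import Vale.Agent.P167W.WStm
import Vale.Agent.P167Q.YStm

/-! P167U: two point function and volume for the random-cluster model. The proofs are those of
`P167Q/Y*.lean` with `perc` replaced by `μ` and `5 / 48` by `α`. -/

open Finset Relation Filter Topology MeasureTheory
open scoped Classical BigOperators

namespace Vale.Agent.P167Q.U

open Vale.Agent.P167Q.W hiding nr

/-- what is already proved -/
structure Au (μ : Measure Cf) (α : ℝ) : Prop where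
  base : Base
  geo : X_geo
  dep : X_dep
  sh : X_sh
  mod : Mod μ
  az : W_az
  mix : M_mix μ
  arm : K_armq μ
  cir : W_cir μ
  sym : W_sym μ
  sub : Q_subq μ
  ring : Q_ringq μ
  rsw : Q_rswq μ
  a0 : 0 < α
  a1 : α ≤ 1 / 4
  eup : ∀ ε > 0, ∀ᶠ n : ℕ in atTop, pcm μ true 0 n ≤ Real.exp (-((α - ε) * Real.log n))
  elo : ∀ ε > 0, ∀ᶠ n : ℕ in atTop, Real.exp (-((α + ε) * Real.log n)) ≤ pcm μ true 0 n

noncomputable section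

def tpm (μ : Measure Cf) (x : Sq) : ℝ := μ.real {ω | x ∈ clus ω 0}

def volm (μ : Measure Cf) (n : ℕ) : ℝ := μ.real {ω | (n : ℕ∞) ≤ (clus ω (0, 0)).encard}

end

def U_cl : Prop := ∀ ω : Cf, P167.Q.clus ω (0, 0) = clus ω (0, 0)

structure U_0 (μ : Measure Cf) (α : ℝ) : Prop where
  ax : ∀ x k, Le (bz x (k + 1)) (Ax x k) ∧ μ.real (Ax x k) = pcm μ true 0 k ∧
    (Even (x.1 + x.2) → IsUpperSet (Ax x k))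
  /-- polynomial bounds for all radii -/
  pol : ∀ ε : ℝ, 0 < ε → ∃ C : ℝ, 1 ≤ C ∧ ∀ k : ℕ, 1 ≤ k →
    (k : ℝ) ^ (-(α + ε)) ≤ C * pcm μ true 0 k ∧ pcm μ true 0 k ≤ C * (k : ℝ) ^ (-(α - ε))

/-- an arm from a point decouples from what is far away -/
def U_dec (μ : Measure Cf) : Prop := ∃ g : ℕ, 1 ≤ g ∧ ∀ (x : Sq) (k : ℕ) (V : Finset Sq)
  (B : Set Cf), Le V B → Disjoint V (bz x (g * (k + 2) + 1)) →
  μ.real (Ax x k ∩ B) ≤ 2 * (pcm μ true 0 k * μ.real B)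

def U_tup (μ : Measure Cf) : Prop := (∀ x : Sq, MeasurableSet {ω : Cf | x ∈ clus ω 0}) ∧
  ∃ g : ℕ, 1 ≤ g ∧ ∀ (x : Sq) (k : ℕ), g * (k + 2) + k + 3 ≤ nr x →
    tpm μ x ≤ 2 * (pcm μ true 0 k * pcm μ true 0 k)

def U_ring (μ : Measure Cf) : Prop := ∃ c : ℝ, 0 < c ∧ ∀ u : ℕ, 72 ≤ u →
  ∃ (G : Set Cf) (W : Finset Sq), Le W G ∧ IsUpperSet G ∧ c * pcm μ true 0 (6 * u) ≤ μ.real G ∧
  ∀ ω ∈ G, ∀ x : Sq, Even (x.1 + x.2) → nr x < u → ω ∈ Ax x (7 * u) → x ∈ clus ω 0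

def U_pu (μ : Measure Cf) (α : ℝ) : Prop := ∀ ε : ℝ, 0 < ε → ∃ C : ℝ, 1 ≤ C ∧ ∀ x : Sq,
  1 ≤ nr x → tpm μ x ≤ C * (nr x : ℝ) ^ (-(2 * α - ε))

def U_pl (μ : Measure Cf) (α : ℝ) : Prop := ∀ ε : ℝ, 0 < ε → ∃ C : ℝ, 1 ≤ C ∧ ∀ x : Sq,
  1 ≤ nr x → Even (x.1 + x.2) → (nr x : ℝ) ^ (-(2 * α + ε)) ≤ C * tpm μ x

def GoalC (μ : Measure Cf) (α : ℝ) : Prop := Tendsto (fun x : ℤ × ℤ =>
  Real.log (μ.real {ω | x ∈ P167.Q.clus ω (0, 0)}) / Real.log (max |x.1| |x.2| : ℤ))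
  (cofinite ⊓ 𝓟 {x | Even (x.1 + x.2)}) (𝓝 (-(2 * α)))

def U_vup (μ : Measure Cf) (α : ℝ) : Prop := ∀ ε : ℝ, 0 < ε → ∀ᶠ n : ℕ in atTop,
  volm μ n ≤ Real.exp (-((α / (2 - α) - ε) * Real.log n))

def U_three (μ : Measure Cf) : Prop := ∃ g : ℕ, 1 ≤ g ∧ ∀ (x y : Sq) (k D : ℕ),
  g * (k + 2) + k + 3 ≤ nr (x - y) → 2 * nr (x - y) ≤ D →
  μ.real (Ax x D ∩ Ax y D) ≤ 4 * (pcm μ true 0 k * pcm μ true 0 k * pam μ (2 * nr (x - y)) D)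

def U_pair (μ : Measure Cf) (α : ℝ) : Prop := ∀ ε : ℝ, 0 < ε → ∃ C : ℝ, 1 ≤ C ∧
  ∀ (u : ℕ) (x y : Sq), nr x < u → nr y < u → 1 ≤ nr (x - y) →
    μ.real (Ax x (7 * u) ∩ Ax y (7 * u)) ≤
      C * (nr (x - y) : ℝ) ^ (-(α - ε)) * pcm μ true 0 (7 * u)

def U_mom (μ : Measure Cf) : Prop := ∀ ε : ℝ, 0 < ε → ∃ C : ℝ, 1 ≤ C ∧ ∀ R : ℕ, 1 ≤ R →
  (R : ℝ) ^ (-ε) ≤ C * μ.real
    {ω | (R : ℝ) ^ 2 * pcm μ true 0 (7 * (R + 1)) / 2 ≤ ZZ R (7 * (R + 1)) ω}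

def U_vlo (μ : Measure Cf) (α : ℝ) : Prop := ∀ ε : ℝ, 0 < ε → ∀ᶠ n : ℕ in atTop,
  Real.exp (-((α / (2 - α) + ε) * Real.log n)) ≤ volm μ n

def GoalD (μ : Measure Cf) (α : ℝ) : Prop := Tendsto (fun n : ℕ =>
  Real.log (μ.real {ω | (n : ℕ∞) ≤ (P167.Q.clus ω (0, 0)).encard}) / Real.log n) atTop
  (𝓝 (-(α / (2 - α))))

end Vale.Agent.P167Q.U
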